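import Vale.Agent.P022K.Gd.Frb

/-!
# Counting the torsion points that reduce to the origin
-/

set_option linter.all false

noncomputable section

namespace Vale.Agent.P022K.Gd

open IsLocalRing P010M P010MBas P010MG0 P010MG0.TM P010M27 P010MCL P010MF

section Alg

open Polynomial

theorem pow_eq_zero_of {A : Type*} [CommRing A] {x q : A} {d m : ℕ}
    (h : x ^ (d + 1) ∈ Ideal.span {q} * Ideal.span {x, q} ^ d) (hq : q ^ m = 0) :
    x ^ (d + m) = 0 := by
  set I : Ideal A := Ideal.span {x, q} with hI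
  have hx : x ∈ I := Ideal.subset_span (by simp)
  have h1 : ∀ n, I ^ (n + 1) ≤ Ideal.span {x ^ (n + 1)} ⊔ Ideal.span {q} * I ^ n := fun n => by
    induction n with
    | zero => simp [hI, Ideal.span_insert]
    | succ n ih =>
      rw [pow_succ' I (n + 1)]
      conv_lhs => rw [hI, Ideal.span_insert, Ideal.sup_mul, ← Ideal.span_insert, ← hI]
      refine sup_le ((Ideal.mul_mono_right ih).trans ?_) le_sup_right
      rw [Ideal.mul_sup, Ideal.span_singleton_mul_span_singleton, ← pow_succ', mul_left_comm,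
        pow_succ' I n]
      exact sup_le_sup_left (Ideal.mul_mono_right (Ideal.mul_mono_left
        ((Ideal.span_singleton_le_iff_mem _).2 hx))) _
  have h2 : I ^ (d + 1) ≤ Ideal.span {q} * I ^ d :=
    (h1 d).trans (sup_le ((Ideal.span_singleton_le_iff_mem _).2 h) le_rfl)
  have h3 : ∀ t, I ^ (d + t) ≤ Ideal.span {q} ^ t * I ^ d := fun t => by
    induction t with
    | zero => simp
    | succ t ih =>
      rw [← add_assoc, pow_succ, pow_succ, mul_assoc]
      refine (Ideal.mul_mono_left ih).trans ?_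
      rw [mul_assoc, ← pow_succ]
      exact Ideal.mul_mono_right h2
  have h4 := Ideal.mul_le_left (h3 m (Ideal.pow_mem_pow hx _))
  rwa [Ideal.span_singleton_pow, hq, Ideal.mem_span_singleton, zero_dvd_iff] at h4

/-- `X ^ d h (X + q / X)` -/
def op (h : ℤ[X]) (q : ℤ) : ℤ[X] := ∑ i ∈ Finset.range (h.natDegree + 1),
  C (h.coeff i) * (X ^ (h.natDegree - i) * (X ^ 2 + C q) ^ i)

theorem aeval_op {A : Type*} [Ring A] {a u : A} {h : ℤ[X]} {q : ℤ} (hc : Commute a u)
    (e : u ^ 2 + q = a * u) (ha : aeval a h = 0) : aeval u (op h q) = 0 := by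
  rw [op, map_sum, ← zero_mul (u ^ h.natDegree), ← ha, aeval_eq_sum_range, Finset.sum_mul]
  refine Finset.sum_congr rfl fun i hi => ?_
  have := Nat.sub_add_cancel (Nat.lt_succ_iff.1 (Finset.mem_range.1 hi))
  simp only [map_mul, map_pow, map_add, eq_intCast, map_intCast, aeval_X, e, hc.mul_pow,
    zsmul_eq_mul, mul_assoc]
  rw [← mul_assoc (u ^ _), ← (hc.pow_pow _ _).eq, mul_assoc, ← pow_add, this]

theorem ord_ring {A : Type*} [CommRing A] {x : A} {h : ℤ[X]} {q : ℤ} {m : ℕ}
    (hx : IsNilpotent x) (hq : (q : A) ^ m = 0) (hc : IsCoprime (h.coeff 0) q)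
    (e : aeval x (op h q) = 0) : x ^ (h.natDegree + m) = 0 := by
  refine pow_eq_zero_of ?_ hq
  set I : Ideal A := Ideal.span {x, (q : A)} with hI
  have h0 : x ∈ I := Ideal.subset_span (by simp)
  have h1 : ∀ i, x * (x ^ (2 * i) - (x ^ 2 + q) ^ i) ∈ Ideal.span {(q : A)} * I ^ i := fun i => by
    induction i with
    | zero => simp
    | succ i ih =>
      rw [show x * (x ^ (2 * (i + 1)) - (x ^ 2 + q) ^ (i + 1)) = x * (x ^ (2 * i) - (x ^ 2 + q) ^ i) *
        (x * x + q) - q * (x ^ i * x ^ (i + 1)) by ring, pow_succ I, ← mul_assoc]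
      refine sub_mem (Ideal.mul_mem_mul ih (add_mem (I.mul_mem_left _ h0)
        (Ideal.subset_span (by simp)))) ?_
      rw [mul_assoc, ← pow_succ]
      exact Ideal.mul_mem_mul (Ideal.mem_span_singleton_self _)
        (Ideal.mul_mem_left _ _ (Ideal.pow_mem_pow h0 _))
  have h2 : IsUnit (aeval x h) := by
    obtain ⟨a, b, hab⟩ := hc
    have h3 : IsUnit ((a : A) * (h.coeff 0 : ℤ)) := by
      rw [show (a : A) * (h.coeff 0 : ℤ) = 1 - b * q by
        rw [eq_sub_iff_add_eq]; exact_mod_cast congrArg (Int.cast : ℤ → A) hab]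
      exact IsNilpotent.isUnit_one_sub ((Commute.all _ _).isNilpotent_mul_left ⟨m, hq⟩)
    rw [← X_mul_divX_add h, map_add, map_mul, aeval_X, aeval_C, eq_intCast]
    exact IsNilpotent.isUnit_add_right_of_commute ((Commute.all _ _).isNilpotent_mul_right hx)
      (isUnit_of_mul_isUnit_right h3) (Commute.all _ _)
  rw [← Ideal.mul_unit_mem_iff_mem _ h2, ← sub_zero (x ^ _ * _), ← mul_zero x, ← e, op, map_sum,
    aeval_eq_sum_range, Finset.mul_sum, Finset.mul_sum, ← Finset.sum_sub_distrib]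
  refine Ideal.sum_mem _ fun i hi => ?_
  obtain ⟨n, hn⟩ := Nat.exists_eq_add_of_le (Nat.lt_succ_iff.1 (Finset.mem_range.1 hi))
  have h4 := Ideal.mul_mem_left _ (h.coeff i : A) (Ideal.mul_mem_mul (h1 i) (Ideal.pow_mem_pow h0 n))
  rw [mul_assoc, ← pow_add, ← hn] at h4
  convert h4 using 1
  simp only [map_mul, map_pow, map_add, eq_intCast, map_intCast, aeval_X, zsmul_eq_mul, hn,
    Nat.add_sub_cancel_left]
  ring

theorem ord_mod {M : Type*} [AddCommGroup M] {π : AddMonoid.End M} {ξ : M} {h : ℤ[X]} {q a m : ℕ}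
    (hx : (π ^ a) ξ = 0) (hq : q ^ m • ξ = 0) (hc : IsCoprime (h.coeff 0) q)
    (e : aeval π (op h q) = 0) : (π ^ (h.natDegree + m)) ξ = 0 := by
  let J : Ideal ℤ[X] :=
    { carrier := {F | aeval π F ξ = 0}
      add_mem' := fun {a b} ha hb => by
        rw [Set.mem_setOf_eq, map_add]
        exact (congrArg₂ (· + ·) ha hb).trans (add_zero _)
      zero_mem' := by rw [Set.mem_setOf_eq, map_zero]; rfl
      smul_mem' := fun c a ha => by
        rw [Set.mem_setOf_eq, smul_eq_mul, map_mul]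
        exact (congrArg (aeval π c) ha).trans (map_zero _) }
  have k : ∀ F, Ideal.Quotient.mk J F = 0 ↔ aeval π F ξ = 0 := fun F => Ideal.Quotient.eq_zero_iff_mem
  have := ord_ring (x := Ideal.Quotient.mk J X) (h := h) (q := q) (m := m)
    ⟨a, by rw [← map_pow, k]; simpa using hx⟩ (by
      rw [Int.cast_natCast, ← Nat.cast_pow, ← map_natCast (Ideal.Quotient.mk J), k, map_natCast]
      exact hq) hc (by
      rw [← Ideal.Quotient.mkₐ_eq_mk ℤ, aeval_algHom_apply, aeval_X_left_apply,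
        Ideal.Quotient.mkₐ_eq_mk, k, e]; rfl)
  rw [← map_pow, k] at this
  simpa using this

end Alg

open MvPolynomial

theorem top_of {O B κ : Type*} [CommRing O] [IsLocalRing O] [CommRing B] [Algebra O B]
    [Module.Finite O B] [Fintype κ] (φ : MvPolynomial κ O →ₐ[O] B) (hφ : Function.Surjective φ)
    {L : Submodule O B} (h1 : 1 ∈ L) (h2 : ∀ j, φ (X j) ∈ L) {Q : ℕ}
    (h3 : ∀ j, φ (X j) ^ Q ∈ (maximalIdeal O).map (algebraMap O B)) :
    ⊤ ≤ L ^ (Q * Fintype.card κ) := by
  classical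
  refine Submodule.le_of_le_smul_of_le_jacobson_bot Module.Finite.fg_top
    (maximalIdeal_le_jacobson ⊥) fun b hb => ?_
  clear hb
  obtain ⟨P, rfl⟩ := hφ b
  induction P using MvPolynomial.induction_on' with
  | add a b ha hb => rw [map_add]; exact add_mem ha hb
  | monomial α c =>
    rw [monomial_eq, map_mul, algHom_C, ← Algebra.smul_def, Finsupp.prod_fintype _ _ (by simp),
      map_prod]
    refine Submodule.smul_mem _ _ ?_
    by_cases h : ∃ j, Q ≤ α j
    · obtain ⟨j, hj⟩ := h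
      refine Submodule.mem_sup_right ?_
      rw [Ideal.smul_top_eq_map, ← Finset.mul_prod_erase _ _ (Finset.mem_univ j), map_pow,
        ← Nat.add_sub_cancel' hj, pow_add, mul_assoc]
      exact Ideal.mul_mem_right _ _ (h3 j)
    · refine Submodule.mem_sup_left ?_
      have : ∀ S : Finset κ, ∏ j ∈ S, φ (X j ^ α j) ∈ L ^ (Q * S.card) := fun S => by
        induction S using Finset.induction_on with
        | empty => simpa using Submodule.one_le.1 (le_refl (1 : Submodule O B))
        | insert j S hj ih =>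
          rw [Finset.prod_insert hj, Finset.card_insert_of_notMem hj, mul_add, mul_one, add_comm,
            pow_add, map_pow, ← mul_one (φ _ ^ _), ← one_pow (Q - α j)]
          refine Submodule.mul_mem_mul ?_ ih
          conv_lhs => rw [← Nat.add_sub_cancel' (not_le.1 fun e => h ⟨j, e⟩).le, pow_add]
          exact Submodule.mul_mem_mul (Submodule.pow_mem_pow _ (h2 j) _)
            (Submodule.pow_mem_pow _ h1 _)
      exact this _

theorem exists_B {O ι κ : Type} [CommRing O] [IsLocalRing O] [Fintype ι] [Finite κ] (i0 : ι)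
    (y : κ → ι → O) (hx : ∀ j i, y j i ∈ maximalIdeal O) : ∃ (B : Type) (_ : CommRing B)
      (_ : IsLocalRing B) (_ : Algebra O B) (_ : Module.Finite O B) (φ : MvPolynomial κ O →ₐ[O] B)
      (ev : ι → B →+* O) (R : Type) (_ : CommRing R) (_ : IsLocalRing R) (π : B →+* R)
      (g : ResidueField O →+* R), Function.Surjective φ ∧
      (∀ i, (ev i).comp (algebraMap O B) = RingHom.id O) ∧ (∀ a b, (∀ i, ev i a = ev i b) → a = b) ∧
      (∀ i j, ev i (φ (X j)) = y j i) ∧ π.comp (algebraMap O B) = g.comp (residue O) ∧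
      ∀ b, π b = 0 ↔ b ∈ (maximalIdeal O).map (algebraMap O B) := by
  let ψ : MvPolynomial κ O →ₐ[O] ι → O := aeval y
  let B := ψ.range
  let φ := ψ.rangeRestrict
  have : Algebra.IsIntegral O B := .of_injective B.val Subtype.val_injective
  have : Algebra.FiniteType O B := .of_surjective φ ψ.rangeRestrict_surjective
  have : Module.Finite O B := Algebra.IsIntegral.finite
  have hl : IsLocalHom (algebraMap B (ι → O)) := RingHom.IsIntegral.isLocalHom
    (Algebra.IsIntegral.tower_top (R := O)).isIntegral Subtype.val_injective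
  have hB : ∀ P i, ψ P i - constantCoeff P ∈ maximalIdeal O := fun P i => by
    induction P using MvPolynomial.induction_on with
    | C a => simp
    | add a b ha hb => rw [map_add, map_add, Pi.add_apply, add_sub_add_comm]; exact add_mem ha hb
    | mul_X a j ha =>
      rw [map_mul, map_mul, constantCoeff_X, mul_zero, sub_zero, Pi.mul_apply, aeval_X]
      exact Ideal.mul_mem_left _ _ (hx j i)
  have : Nontrivial B := ⟨0, 1, fun e => zero_ne_one (congrFun (congrArg Subtype.val e) i0)⟩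
  have : IsLocalRing B := .of_isUnit_or_isUnit_one_sub_self fun b => by
    obtain ⟨P, rfl⟩ := ψ.rangeRestrict_surjective b
    refine (isUnit_or_isUnit_one_sub_self (constantCoeff P)).imp
      (fun e => hl.1 _ (Pi.isUnit_iff.2 fun i => ?_)) fun e => hl.1 _ (Pi.isUnit_iff.2 fun i => ?_)
    · by_contra e'
      exact (mem_maximalIdeal _).1 (by simpa using sub_mem ((mem_maximalIdeal _).2 e') (hB P i)) e
    · by_contra e'
      exact (mem_maximalIdeal _).1 (by simpa using add_mem ((mem_maximalIdeal _).2 e') (hB P i)) e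
  let ev : ι → B →+* O := fun i => (Pi.evalRingHom _ i).comp B.val.toRingHom
  let I := (maximalIdeal O).map (algebraMap O B)
  have hI : I ≠ ⊤ := fun e => by
    have : I ≤ (maximalIdeal O).comap (ev i0) := Ideal.map_le_iff_le_comap.2 fun a ha => ha
    exact (mem_maximalIdeal _).1 (this (e ▸ Submodule.mem_top : (1 : B) ∈ I)) (by simp)
  have : Nontrivial (B ⧸ I) := Ideal.Quotient.nontrivial_iff.2 hI
  exact ⟨B, inferInstance, inferInstance, inferInstance, inferInstance, φ, ev, B ⧸ I, inferInstance,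
    .of_surjective' _ Ideal.Quotient.mk_surjective, Ideal.Quotient.mk I,
    Ideal.quotientMap I (algebraMap O B) Ideal.le_comap_map, ψ.rangeRestrict_surjective,
    fun i => RingHom.ext fun _ => rfl, fun a b e => Subtype.ext (funext e),
    fun i j => congrFun (aeval_X y j) i, rfl, fun b => Ideal.Quotient.eq_zero_iff_mem⟩

section Ker

variable {k F ι : Type} [CommRing k] [CommRing F] {A : AbSch k ι} {φ : k →+* F} (p : ℕ)
  [Fact p.Prime] [CharP F p]

/-- `w` has the kernel of the `p ^ n`-th power map -/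
def Kf (w : RHom A φ A φ) (n : ℕ) : Prop :=
  ∀ (R : Type) [CommRing R] [IsLocalRing R] (g : F →+* R) (f : k →+* R) (e : g.comp φ = f)
    (x : A.P f), w.app g e e x = 0 ↔ pmap (frR p g n) rfl x = 0

variable {p}

omit [Fact p.Prime] [CharP F p] in
theorem kz_congr {R S : Type} [CommRing R] [IsLocalRing R] [CommRing S] [IsLocalRing S]
    {f : k →+* R} {a b : R →+* S} (e : a = b) (x : A.P f) :
    pmap a rfl x = 0 ↔ pmap b rfl x = 0 := by subst e; rfl

theorem Kf.mul {v w : RHom A φ A φ} {m n : ℕ} (hv : Kf p v m) (hw : Kf p w n) :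
    Kf p (v * w) (m + n) := fun R _ _ g f e x => by
  subst e
  rw [RHom.mul_app, hv, w.nat rfl rfl (g₁ := (frR p g m).comp g) rfl rfl _ rfl rfl rfl, hw]
  have : frR p g (m + n) = (frR p ((frR p g m).comp g) n).comp (frR p g m) :=
    RingHom.ext fun a => by simp only [RingHom.comp_apply, frR_apply, pow_add, pow_mul]
  rw [kz_congr this]
  obtain ⟨c, rfl⟩ := mk_surj x
  rfl

theorem Kf.pow {w : RHom A φ A φ} {n : ℕ} (hw : Kf p w n) (a : ℕ) : Kf p (w ^ a) (n * a) := by
  induction a with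
  | zero =>
    intro R _ _ g f e x
    have : frR p g (n * 0) = RingHom.id R := RingHom.ext fun a => by simp [frR_apply]
    rw [pow_zero, RHom.one_app, kz_congr this]
    obtain ⟨c, rfl⟩ := mk_surj x
    rfl
  | succ a ih => rw [pow_succ]; exact ih.mul hw

omit [Fact p.Prime] [CharP F p] in
theorem pmk_eq {R : Type} [CommRing R] {f : k →+* R} {a b : Cone A.I f} :
    pmk a = pmk b ↔ ∀ i j, a.1 i * b.1 j = b.1 i * a.1 j := by
  refine ⟨fun h i j => ?_, fun H => ?_⟩
  · obtain ⟨u, hu⟩ := mk_eq.1 h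
    rw [hu, Pi.smul_apply, Pi.smul_apply, smul_eq_mul, smul_eq_mul]; ring
  obtain ⟨i, hi⟩ := a.2.1
  obtain ⟨j, hj⟩ := b.2.1
  have hj' := isUnit_of_mul_isUnit_right (H i j ▸ hi.mul hj)
  refine mk_eq.2 ⟨hj.unit * hj'.unit⁻¹, funext fun l => hj'.mul_right_cancel ?_⟩
  rw [← H, Pi.smul_apply, smul_eq_mul, Units.val_mul, IsUnit.unit_spec, mul_right_comm,
    mul_assoc (b.1 j), IsUnit.val_inv_mul, mul_one, mul_comm]

/-- an ordinary endomorphism kills the infinitesimal torsion quickly -/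
theorem Kf.ord {w : RHom A φ A φ} {n : ℕ} (hw : Kf p w n) (hn : 0 < n) {h : Polynomial ℤ}
    (hc : IsCoprime (h.coeff 0) (p ^ n : ℕ)) (e : Polynomial.aeval w (op h (p ^ n : ℕ)) = 0)
    {R : Type} [CommRing R] [IsLocalRing R] (g : F →+* R) {f : k →+* R} (e' : g.comp φ = f)
    (x : A.P f) {a m : ℕ} (ha : ∀ b, a ≤ b → pmap (frR p g b) rfl x = 0)
    (hm : (p ^ n) ^ m • x = 0) : pmap (frR p g (n * (h.natDegree + m))) rfl x = 0 := by
  rw [← hw.pow _ R g f e']
  have := ord_mod (π := RHom.act g e' w) (a := a) (by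
    rw [← map_pow]; exact (hw.pow a R g f e' x).2 (ha _ (Nat.le_mul_of_pos_left a hn))) hm hc
    ((Polynomial.aeval_algHom_apply (RHom.act g e').toIntAlgHom w _).trans
      ((congrArg _ e).trans (map_zero _)))
  rwa [← map_pow] at this

end Ker

variable {O G : Type} [CommRing O] [AddCommGroup G] [IsLocalRing O] [IsAlgClosed (ResidueField O)]
  {T : TM O G} {p : ℕ} [Fact p.Prime] [CharP (ResidueField O) p] (h : T.Good)

theorem Sl.kf {ρ : G → G → Prop} {σ : O →+* O} {n : ℕ} (H : Sl T T σ 1 ρ)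
    (hσ : ∀ x, residue O (σ x) = residue O x ^ p ^ n)
    (hs : ∀ t' ∈ T.S 1, ∃ t ∈ T.S 1, ∀ v w, ρ v w → t w = σ (t' v)) :
    Kf p (H.frob hσ h h) n := fun R _ _ g f e x => by
  subst e
  have e1 : g.comp ((iterateFrobenius _ p n).comp (residue O)) =
      (frR p g n).comp (g.comp (residue O)) := RingHom.ext fun a => map_pow g _ _
  rw [Sl.frob, RHom.comp_app _ _ g rfl e1 rfl]
  refine (injective_iff_map_eq_zero' _).1 (fun a b hab => ?_) _
  obtain ⟨a, rfl⟩ := pmk_surj a
  obtain ⟨b, rfl⟩ := pmk_surj b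
  choose t h1 h2 using fun i => hs _ ((T.itp 1).mem i)
  have k : ∀ (y : Cone h.ab.I _) i, T.vl _ ((chom h h (H.rd hσ).sw ((H.rd hσ).unit h)).app g e1 rfl
      y).1 1 (t i) = y.1 i := fun y i => by
    refine (chom_cp h h _ _ g e1 rfl y (h1 i)).trans ((psh_φ _ _ _ _ _ _ _).trans ?_)
    rw [← h.vec_cp y, CP.vec, (h.cp y).exp ((T.itp 1).mem i)]
    refine Finset.sum_congr rfl fun j _ => congrArg (· * _) ?_
    change g (residue O (t i _)) = _
    rw [h2 i _ _ ((H.rd hσ).w_rel _), hσ, map_pow]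
    rfl
  obtain ⟨u, hu⟩ := mk_eq.1 ((CHom.toR_mk _ g e1 rfl a).symm.trans
    (hab.trans (CHom.toR_mk _ g e1 rfl b)))
  refine mk_eq.2 ⟨u, funext fun i => ?_⟩
  rw [← k b, hu, Pi.smul_apply, ← k a, smul_eq_mul, mul_comm, ← pow_one u.val,
    ← vl_smul h.gen _ _ (h1 i)]
  exact congrArg (T.vl _ · 1 _) (funext fun j => by simp [mul_comm])

/-- **the count** -/
theorem cnt [IsDomain O] {ι : Type} [Fintype ι] (w : ι → G)
    (h1 : ∀ i, h.ptHom (residue O) (w i) = 0)
    (h2 : Function.Injective fun i => h.ptHom (RingHom.id O) (w i)) {n b : ℕ}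
    (h3 : ∀ i, n • h.ptHom (RingHom.id O) (w i) = 0)
    (H : ∀ (R : Type) [CommRing R] [IsLocalRing R] (g : ResidueField O →+* R)
      (x : h.ab.P (g.comp (residue O))) (a : ℕ), (∀ b, a ≤ b → pmap (frR p g b) rfl x = 0) →
      n • x = 0 → pmap (frR p g b) rfl x = 0) : Fintype.card ι ≤ T.rk (p ^ b * T.rk 1) := by
  classical
  rcases isEmpty_or_nonempty ι with hι | ⟨⟨i0⟩⟩
  · simp
  obtain ⟨j0, u0⟩ := h.uni 0
  let c : G → Cone h.ab.I (RingHom.id O) := fun v => ⟨T.z v, (mkC h.gen (fun i => RingHom.id O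
    (T.z v i)) ((h.uni v).imp fun _ hi => hi) (Z_z _ v)).2⟩
  have hc : ∀ v, h.ptHom _ v = pmk (c v) := fun v => h.ptHom_mk v _ rfl
  have r0 : ∀ i j l, residue O (T.z (w i) j) * residue O (T.z 0 l) =
      residue O (T.z 0 j) * residue O (T.z (w i) l) := fun i =>
    (pmk_eq (a := Cone.map (residue O) (RingHom.comp_id _) (c (w i)))
      (b := Cone.map (residue O) (RingHom.comp_id _) (c 0))).1
        ((h1 i).trans (map_zero (h.ptHom (residue O))).symm)
  have uw : ∀ i, IsUnit (T.z (w i) j0) := fun i => by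
    obtain ⟨l, hl⟩ := h.uni (w i)
    exact (residue_ne_zero_iff_isUnit _).1 (right_ne_zero_of_mul (r0 i l j0 ▸
      ((hl.map _).mul (u0.map (residue O))).ne_zero))
  let x : T.ι → ι → O := fun j i => (uw i).unit⁻¹.val * T.z (w i) j
  let x0 : T.ι → O := fun j => u0.unit⁻¹.val * T.z 0 j
  have hx : ∀ j i, x j i - x0 j ∈ maximalIdeal O := fun j i => by
    rw [← Ideal.mul_unit_mem_iff_mem _ ((uw i).mul u0), ← residue_eq_zero_iff,
      show (x j i - x0 j) * (T.z (w i) j0 * T.z 0 j0) = ((uw i).unit⁻¹.val * T.z (w i) j0) *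
        (T.z (w i) j * T.z 0 j0) - (u0.unit⁻¹.val * T.z 0 j0) * (T.z 0 j * T.z (w i) j0) by
          simp only [x, x0]; ring, IsUnit.val_inv_mul, IsUnit.val_inv_mul]
    simp [r0 i j j0]
  obtain ⟨B, _, _, _, _, φ, ev, R, _, _, π, g, hφ, he, hj, hy, eg, hπ⟩ :=
    exists_B i0 (fun j i => x j i - x0 j) hx
  let X' : T.ι → B := fun j => φ (X j) + algebraMap O B (x0 j)
  have hX : ∀ i j, ev i (X' j) = x j i := fun i j => by
    rw [map_add, hy, ← RingHom.comp_apply, he, RingHom.id_apply, sub_add_cancel]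
  have X1 : X' j0 = 1 := hj _ _ fun i => by rw [hX, map_one]; exact (uw i).val_inv_mul
  let ξ : Cone h.ab.I (algebraMap O B) := ⟨X', ⟨j0, X1 ▸ isUnit_one⟩, fun P hP => hj _ _ fun i => by
    rw [eval₂_comp_left, he, map_zero, show ev i ∘ X' = fun j => x j i from funext (hX i)]
    exact (csmul h.ab.hom (uw i).unit⁻¹ (c (w i))).2.2 P hP⟩
  have hξ : ∀ i, pmap (ev i) (he i) (pmk ξ) = h.ptHom _ (w i) := fun i =>
    (congrArg pmk (Subtype.ext (funext (hX i)))).trans
      ((mk_csmul h.ab.hom (uw i).unit⁻¹ (c (w i))).trans (hc _).symm)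
  have hn : n • pmk ξ = 0 := by
    obtain ⟨a, ha⟩ := pmk_surj (n • pmk ξ)
    obtain ⟨b, hb⟩ := pmk_surj (0 : h.ab.P (algebraMap O B))
    rw [← ha, ← hb]
    refine pmk_eq.2 fun j l => hj _ _ fun i => ?_
    rw [map_mul, map_mul]
    refine (pmk_eq (a := Cone.map (ev i) (he i) a) (b := Cone.map (ev i) (he i) b)).1 ?_ j l
    change pmap (ev i) (he i) (pmk a) = pmap (ev i) (he i) (pmk b)
    rw [ha, hb, pmap_nsmul, hξ, h3, pmap_zero]
  set I := (maximalIdeal O).map (algebraMap O B)
  let o : Cone h.ab.I (g.comp (residue O)) :=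
    Cone.map _ (RingHom.comp_id _) (csmul h.ab.hom u0.unit⁻¹ (c 0))
  have ho : pmk o = 0 := (congrArg (pmap _ (RingHom.comp_id _))
    ((mk_csmul h.ab.hom u0.unit⁻¹ (c 0)).trans ((hc 0).symm.trans (map_zero _)))).trans
      (pmap_zero _ _)
  have o1 : o.1 j0 = 1 := (congrArg (g.comp (residue O)) u0.val_inv_mul).trans (map_one _)
  have key : ∀ b, pmap (frR p g b) rfl (pmap π eg (pmk ξ)) = 0 ↔ ∀ j, φ (X j) ^ p ^ b ∈ I := fun b => by
    have k1 : ∀ j, φ (X j) ^ p ^ b ∈ I ↔
        frR p g b (π (X' j)) = frR p g b (o.1 j) := fun j => by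
      rw [← sub_eq_zero, ← map_sub, frR_apply, ← hπ, map_pow, map_add, ← RingHom.comp_apply π, eg]
      exact Eq.congr_left (congrArg (· ^ _) (add_sub_cancel_right _ _).symm)
    rw [← pmap_zero (frR p g b) rfl, ← ho]
    refine (pmk_eq (a := Cone.map _ rfl (Cone.map _ eg ξ)) (b := Cone.map _ rfl o)).trans
      ⟨fun e j => (k1 j).2 ?_, fun e j l => ?_⟩
    · have : frR p g b (π (X' j)) * frR p g b (o.1 j0) = frR p g b (o.1 j) * frR p g b (π (X' j0)) :=
        e j j0
      simpa only [o1, X1, map_one, mul_one] using this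
    · exact congrArg₂ (· * ·) ((k1 _).1 (e _)) ((k1 _).1 (e _)).symm
  have nil : ∀ j, φ (X j) ^ Fintype.card ι ∈ I := fun j => by
    have h4 : ∏ i, (φ (X j) - algebraMap O B (x j i - x0 j)) = 0 := hj _ _ fun i => by
      rw [map_prod, map_zero]
      refine Finset.prod_eq_zero (Finset.mem_univ i) ?_
      rw [map_sub, hy, ← RingHom.comp_apply, he, RingHom.id_apply, sub_self]
    have h5 := congrArg π h4
    simp only [map_prod, map_sub π, map_zero, fun i =>
      (hπ _).2 (Ideal.mem_map_of_mem (algebraMap O B) (hx j i)), sub_zero,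
      Finset.prod_const, ← map_pow] at h5
    exact (hπ _).1 (map_pow φ _ _ ▸ h5)
  let L : ℕ → Submodule O B := fun m =>
    { carrier := {b | ∃ s ∈ T.S m, ∀ i, s (w i) = ev i b * T.z (w i) j0 ^ m}
      add_mem' := fun ⟨s, hs, e⟩ ⟨t, ht, e'⟩ => ⟨s + t, add_mem hs ht, fun i => by
        rw [Pi.add_apply, e, e', map_add, add_mul]⟩
      zero_mem' := ⟨0, zero_mem _, fun i => by simp⟩
      smul_mem' := fun a b ⟨s, hs, e⟩ => ⟨a • s, Submodule.smul_mem _ _ hs, fun i => by
        rw [Pi.smul_apply, e, smul_eq_mul, Algebra.smul_def, map_mul, ← RingHom.comp_apply, he,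
          mul_assoc]; rfl⟩ }
  have L1 : ∀ j, X' j ∈ L 1 := fun j => ⟨_, (T.itp 1).mem j, fun i => by
    rw [hX, pow_one, mul_right_comm, IsUnit.val_inv_mul, one_mul]; rfl⟩
  have Lm : ∀ m, L 1 ^ m ≤ L m := fun m => by
    induction m with
    | zero => exact Submodule.one_le.2 ⟨1, T.one_mem, fun i => by simp⟩
    | succ m ih =>
      rw [pow_succ]
      refine Submodule.mul_le.2 fun a ha b ⟨t, ht, e'⟩ => ?_
      obtain ⟨s, hs, e⟩ := ih ha
      exact ⟨s * t, T.mul_mem hs ht, fun i => by rw [Pi.mul_apply, e, e', map_mul]; ring⟩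
  have top := (top_of φ hφ (X1 ▸ L1 j0) (fun j => by
    have := sub_mem (L1 j) (Submodule.smul_mem _ (x0 j) (X1 ▸ L1 j0 : 1 ∈ L 1))
    rwa [← Algebra.algebraMap_eq_smul_one, add_sub_cancel_right] at this)
    ((key b).1 (H _ g _ (Fintype.card ι) (fun b hb => (key b).2 fun j => by
      rw [← Nat.add_sub_cancel' (hb.trans (Nat.lt_pow_self (Fact.out : p.Prime).one_lt).le), pow_add]
      exact I.mul_mem_right _ (nil j)) (by rw [← pmap_nsmul, hn, pmap_zero])))).trans (Lm _)
  rw [Fintype.card_fin] at top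
  have sep : ∀ i i', ∃ j, i' ≠ i → x j i - x j i' ≠ 0 := fun i i' => by
    by_contra! e
    refine (e j0).1 (h2 ((hξ i').symm.trans ((congrArg pmk (Subtype.ext (funext fun j => ?_))).trans
      (hξ i))))
    exact (hX i' j).trans ((sub_eq_zero.1 (e j).2).symm.trans (hX i j).symm)
  choose J hJ using sep
  choose s hs hv using fun i => top (Submodule.mem_top (x := ∏ i' ∈ Finset.univ.erase i,
    (X' (J i i') - algebraMap O B (x (J i i') i'))))
  have hv' : ∀ i i', s i (w i') = (∏ l ∈ Finset.univ.erase i, (x (J i l) i' - x (J i l) l)) *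
      T.z (w i') j0 ^ (p ^ b * T.rk 1) := fun i i' => by
    rw [hv, map_prod]
    simp only [map_sub, hX, ← RingHom.comp_apply (ev _), he, RingHom.id_apply]
  have li : LinearIndependent O fun i j => s i (T.pt _ j) :=
    Fintype.linearIndependent_iff.2 fun a ha i => by
      have h4 : ∑ l, a l * s l (w i) = 0 := by
        simp only [fun l => (T.itp _).exp _ (hs l) (w i), Finset.mul_sum, ← mul_assoc]
        rw [Finset.sum_comm]
        refine Finset.sum_eq_zero fun j _ => ?_
        rw [← Finset.sum_mul, show ∑ l, a l * s l _ = 0 by simpa using congrFun ha j, zero_mul]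
      rw [Finset.sum_eq_single i (fun l _ hl => by
        rw [hv', Finset.prod_eq_zero (Finset.mem_erase.2 ⟨hl.symm, Finset.mem_univ i⟩) (sub_self _),
          zero_mul, mul_zero]) (by simp), hv'] at h4
      exact (mul_eq_zero.1 h4).resolve_right (mul_ne_zero (Finset.prod_ne_zero_iff.2 fun l hl =>
        hJ i l (Finset.mem_erase.1 hl).1) ((uw i).pow _).ne_zero)
  simpa using li.fintype_card_le_finrank

end Vale.Agent.P022K.Gd
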