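import Vale.Agent.P022K.TP.Defs
import Vale.Agent.P022K.PM.Co5
import Mathlib.NumberTheory.NumberField.InfinitePlace.Embeddings
import Mathlib.Analysis.Normed.Module.FiniteDimension

/-!
# The connected part of a rational Tate module
-/

set_option linter.all false

open Matrix Module

noncomputable section

namespace Vale.Agent.P022K.Gd

open P010MR P010MT8 TP PM

/-- the adele with one component -/
def sgl (r : Pr) : ℚ_[r.1] →+ Af := AddMonoidHom.mk' (fun x => ⟨Pi.single r x, by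
    obtain ⟨k, hk⟩ := exists_pow_le (r := r.1) x
    refine ⟨r.1 ^ k, pow_pos r.2.pos k, fun r' => ?_⟩
    rcases eq_or_ne r' r with rfl | h
    · rwa [Pi.single_eq_same, ← nsmul_eq_mul]
    · simp [Pi.single_eq_of_ne h]⟩) fun x y =>
      Subtype.ext (Pi.single_add (f := fun r : Pr => ℚ_[r.1]) r x y)

variable {g : ℕ} {r : Pr}

theorem pr_sgl (x : ℚ_[r.1]) : pr r (sgl r x) = x :=
  Pi.single_eq_same (M := fun r : Pr => ℚ_[r.1]) r x

theorem pr_sgl' {r' : Pr} (h : r' ≠ r) (x : ℚ_[r.1]) : pr r' (sgl r x) = 0 :=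
  Pi.single_eq_of_ne (M := fun r : Pr => ℚ_[r.1]) h x

theorem mul_sgl (u : Af) (x : ℚ_[r.1]) : u * sgl r x = sgl r (pr r u * x) := ext_pr fun r' => by
  rcases eq_or_ne r' r with rfl | h
  · rw [map_mul, pr_sgl, pr_sgl]
  · rw [map_mul, pr_sgl' h, pr_sgl' h, mul_zero]

/-- the adelic vector with one component -/
def sv (x : Ix g → ℚ_[r.1]) : Ix g → Af := fun i => sgl r (x i)

theorem sv_mul (u : Mi g Af) (x : Ix g → ℚ_[r.1]) : u *ᵥ sv x = sv (mp r u *ᵥ x) :=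
  funext fun i => by simp [sv, mulVec, dotProduct, mul_sgl, mp_apply]

theorem sv_add (x y : Ix g → ℚ_[r.1]) : sv (x + y) = sv x + sv y := funext fun _ => map_add _ _ _

theorem sv_sub (x y : Ix g → ℚ_[r.1]) : sv (x - y) = sv x - sv y := funext fun _ => map_sub _ _ _

theorem vn_sv {x : Ix g → ℚ_[r.1]} : Vn 1 (sv x) ↔ ‖x‖ ≤ 1 := by
  rw [pi_norm_le_iff_of_nonneg zero_le_one]
  refine forall_congr' fun i => mem_Z1.trans ⟨fun h => pr_sgl (x i) ▸ h r, fun h r' => ?_⟩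
  rcases eq_or_ne r' r with rfl | e
  · rwa [sv, pr_sgl]
  · simp [sv, pr_sgl' e]

theorem vn_ap {u : Mi g Af} (hu : Mn 1 u) {x : Ix g → ℚ_[r.1]} {v a : Ix g → ℚ}
    (hv : Vn 1 (sv x - av v)) (ha : Vn 1 (sv (mp r u *ᵥ x) - av a)) : Vn 1 (u *ᵥ av v - av a) := by
  have := ha.sub (Mn.mulVec (a := 1) (b := 1) hu hv)
  rwa [← sv_mul, mulVec_sub, sub_sub_sub_cancel_left] at this

variable {K : AddSubgroup (Ix g → ℚ)} (hK : ∀ v, Vz 1 v → v ∈ K) (r)

/-- the vectors all of whose multiples are approximated by elements of `K` -/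
def V0 : Submodule ℚ_[r.1] (Ix g → ℚ_[r.1]) where
  carrier := {x | ∀ (c : ℚ_[r.1]) v, Vn 1 (sv (c • x) - av v) → v ∈ K}
  add_mem' := fun {x y} hx hy c v hv => by
    obtain ⟨w, hw⟩ := exists_vn (sv (c • x)) one_pos
    rw [← add_sub_cancel w v]
    refine add_mem (hx c w hw) (hy c _ ?_)
    convert hv.sub hw using 1
    rw [smul_add, sv_add, av_sub]; abel
  zero_mem' := fun c v hv => hK v ((vn_av one_pos).1 (by
    simpa using ((vn_sv (r := r) (x := c • 0)).2 (by simp)).sub hv))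
  smul_mem' := fun a x hx c v hv => hx (c * a) v (by rwa [mul_smul])

variable {r}

theorem V0_stab {u : Mi g Af} (hu : Mn 1 u)
    (H : ∀ v a, Vn 1 (u *ᵥ av v - av a) → v ∈ K → a ∈ K) {x} (hx : x ∈ V0 r hK) :
    mp r u *ᵥ x ∈ V0 r hK := fun c a ha => by
  obtain ⟨v, hv⟩ := exists_vn (sv (c • x)) one_pos
  exact H v a (vn_ap hu hv (by rwa [mulVec_smul])) (hx c v hv)

theorem V0_kill {u : Mi g Af} (hu : Mn 1 u) (H : ∀ v a, Vn 1 (u *ᵥ av v - av a) → a ∈ K) (x) :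
    mp r u *ᵥ x ∈ V0 r hK := fun c a ha => by
  obtain ⟨v, hv⟩ := exists_vn (sv (c • x)) one_pos
  exact H v a (vn_ap hu hv (by rwa [mulVec_smul]))

theorem V0_dim {k C : ℕ} (hk : 0 < k) (H : ∀ (m : ℕ) (ι : Type) [Fintype ι] (w : ι → Ix g → ℚ),
    (∀ i, w i ∈ K) → (∀ i j, Vz 1 (w i - w j) → i = j) → (∀ i, Vz 1 ((r.1 ^ k) ^ m • w i)) →
      Fintype.card ι ≤ (C * (r.1 ^ k) ^ m) ^ g) : finrank ℚ_[r.1] (V0 r hK) ≤ g := by
  by_contra! h
  obtain ⟨b, hb⟩ := exists_linearIndependent_of_le_finrank (Nat.succ_le_of_lt h)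
  let X := (V0 r hK).subtype ∘ₗ Fintype.linearCombination ℚ_[r.1] b
  obtain ⟨A, -, hA⟩ := X.exists_antilipschitzWith (LinearMap.ker_eq_bot.2
    (Subtype.val_injective.comp hb.fintypeLinearCombination_injective))
  have h1 : 1 < r.1 ^ k := Nat.one_lt_pow hk.ne' r.2.one_lt
  have h2 : ∀ m : ℕ, ‖(((r.1 ^ k) ^ m : ℕ) : ℚ_[r.1])‖ = (((r.1 ^ k) ^ m : ℕ) : ℝ)⁻¹ := fun m => by
    rw [← pow_mul, Nat.cast_pow, Nat.cast_pow, nrm_r]
  have h2' : ∀ (m : ℕ) (z : ℤ), ‖(z : ℚ_[r.1])‖ ≤ (((r.1 ^ k) ^ m : ℕ) : ℝ)⁻¹ →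
      (((r.1 ^ k) ^ m : ℕ) : ℤ) ∣ z := fun m z hz => by
    rw [← pow_mul, Nat.cast_pow] at hz ⊢
    exact (Padic.norm_int_le_pow_iff_dvd z _).1 (by rwa [_root_.zpow_neg, zpow_natCast])
  generalize r.1 ^ k = q at *
  have h3 : ∀ m : ℕ, (0 : ℝ) < (q ^ m : ℕ) := fun m => Nat.cast_pos.2 (pow_pos (by omega) m)
  have h3' : ∀ m : ℕ, ((q ^ m : ℕ) : ℚ_[r.1]) ≠ 0 := fun m =>
    Nat.cast_ne_zero.2 (pow_pos (by omega) m).ne'
  obtain ⟨a, ha⟩ := pow_unbounded_of_one_lt (A : ℝ) (Nat.one_lt_cast.2 h1 : (1 : ℝ) < q)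
  obtain ⟨c, hc⟩ := pow_unbounded_of_one_lt ‖X.toContinuousLinearMap‖
    (Nat.one_lt_cast.2 h1 : (1 : ℝ) < q)
  obtain ⟨m, hm⟩ := pow_unbounded_of_one_lt ((C * q ^ (a + c)) ^ g) h1
  let y : (Fin (g + 1) → Fin (q ^ m)) → Ix g → ℚ_[r.1] := fun n =>
    ((q ^ (m + a) : ℕ) : ℚ_[r.1])⁻¹ • X fun i => (n i : ℕ)
  choose w hw using fun n => exists_vn (sv (y n)) one_pos
  have h4 := H (m + (a + c)) _ w (fun n => (Fintype.linearCombination ℚ_[r.1] b _).2 _ _ (hw n))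
    (fun n n' e => ?_) fun n => ?_
  · rw [Fintype.card_fun, Fintype.card_fin, Fintype.card_fin, pow_succ, pow_add, mul_left_comm,
      mul_pow] at h4
    exact hm.not_ge (le_of_mul_le_mul_left h4 (by positivity))
  · have h5 : ‖y n - y n'‖ ≤ 1 := vn_sv.1 (by
      convert ((hw n).sub (hw n')).add ((vn_av one_pos).2 e) using 1
      rw [sv_sub, av_sub]; abel)
    rw [← smul_sub, ← map_sub, norm_smul, norm_inv, h2, inv_inv, ← le_div_iff₀' (h3 _)] at h5
    funext i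
    have h6 := (norm_le_pi_norm _ i).trans ((ZeroHomClass.bound_of_antilipschitz X hA _).trans
      (mul_le_mul ha.le h5 (norm_nonneg _) (by positivity)))
    refine Fin.ext (Nat.ModEq.eq_of_lt_of_lt (Nat.modEq_iff_dvd.2 (h2' m _ ?_)) (n' i).2 (n i).2).symm
    rw [pow_add, Nat.cast_mul, Nat.cast_pow q a, mul_one_div, div_mul_cancel_right₀ (by positivity)]
      at h6
    simpa using h6
  · refine (vn_av one_pos).1 ?_
    have h5 : Vn 1 (sv (((q ^ (m + (a + c)) : ℕ) : ℚ_[r.1]) • y n)) := vn_sv.2 (by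
      rw [smul_smul, ← add_assoc, pow_add, Nat.cast_mul, mul_right_comm, mul_inv_cancel₀ (h3' _),
        one_mul, norm_smul, h2, inv_mul_le_iff₀ (h3 _), mul_one]
      refine (X.toContinuousLinearMap.le_opNorm _).trans ((mul_le_of_le_one_right (norm_nonneg _)
        ((pi_norm_le_iff_of_nonneg zero_le_one).2 fun i => nat_le r _)).trans ?_)
      exact_mod_cast hc.le)
    intro i
    convert sub_mem (h5 i) (Zn_mul1 (int_mem (q ^ (m + (a + c)) : ℕ)) (hw n i)) using 1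
    simp [av, sv, mul_sub, mul_sgl]

section Lin

variable {n E F L : Type} [Fintype n] [DecidableEq n] [Field E] [Algebra ℚ E]
  [FiniteDimensional ℚ E] [Field F] [CharZero F] [Field L] [CharZero L] [IsAlgClosed L]
  [Algebra F L] {ρ : E →ₐ[ℚ] Matrix n n ℚ} {J : Matrix n n ℚ}

/-- a stable subspace of half the dimension that meets all eigenspaces meets them in lines -/
theorem exists_row (H : Sy ρ J) {W : Submodule F (n → F)} (hW : finrank F W * 2 ≤ Fintype.card n)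
    (hs : ∀ a, ∀ x ∈ W, (ρ a).map (↑) *ᵥ x ∈ W)
    (hx : ∀ ψ : E →+* L, ∃ Q, Fm ρ ψ Q ∧ ∃ x ∈ W, Q *ᵥ (algebraMap F L ∘ x) ≠ 0)
    {ψ : E →+* L} {Q0 : Matrix (Fin 2) n L} (h0 : Fm ρ ψ Q0) :
    ∃ w : Fin 2 → L, w ≠ 0 ∧ ∀ x ∈ W, w ⬝ᵥ Q0 *ᵥ (algebraMap F L ∘ x) = 0 := by
  classical
  have : CharZero E := algebraRat.charZero E
  obtain rfl : ‹Algebra ℚ E› = DivisionRing.toRatAlgebra := Subsingleton.elim _ _
  have : NumberField E := ⟨⟩
  choose Q hQ x hx h1 using hx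
  choose P p1 p2 p3 using fun ψ => (hQ ψ).idem H
  let b := finBasis F W
  let W' := Submodule.span L (Set.range fun i => algebraMap F L ∘ (b i).1)
  have h2 : ∀ x ∈ W, algebraMap F L ∘ x ∈ W' := fun x hx => by
    rw [show algebraMap F L ∘ x = ∑ i, algebraMap F L (b.repr ⟨x, hx⟩ i) •
      algebraMap F L ∘ (b i).1 from funext fun i => by
        simpa [Algebra.smul_def, -Basis.sum_repr] using
          congrArg (fun y : W => algebraMap F L (y.1 i)) (b.sum_repr ⟨x, hx⟩).symm]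
    exact W'.sum_mem fun i _ => W'.smul_mem _ (Submodule.subset_span ⟨i, rfl⟩)
  have h3 : ∀ m ∈ Submodule.span L (Set.range fun a => (ρ a).map ((↑) : ℚ → L)),
      (∀ y ∈ W', m *ᵥ y ∈ W') ∧ ∀ a, (ρ a).map (↑) * m = m * (ρ a).map (↑) := fun m hm => by
    induction hm using Submodule.span_induction with
    | mem m hm =>
      obtain ⟨c, rfl⟩ := hm
      refine ⟨fun y hy => (Submodule.span_le (p := W'.comap (mulVecLin _))).2 ?_ hy, fun a => ?_⟩
      · rintro _ ⟨i, rfl⟩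
        have := h2 _ (hs c _ (b i).2)
        rwa [show algebraMap F L ∘ ((ρ c).map (↑) *ᵥ (b i).1) = (ρ c).map (↑) *ᵥ
          (algebraMap F L ∘ (b i).1) from funext fun _ => by simp [mulVec, dotProduct]] at this
      · exact (Matrix.map_mul (f := Rat.castHom L)).symm.trans ((congrArg
          (fun x : Matrix n n ℚ => x.map _) (by rw [← map_mul, mul_comm, map_mul])).trans
            Matrix.map_mul)
    | zero => simp
    | add x y _ _ a b => exact ⟨fun z hz => add_mulVec x y z ▸ add_mem (a.1 z hz) (b.1 z hz),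
        fun c => by rw [mul_add, add_mul, a.2, b.2]⟩
    | smul c x _ a => exact ⟨fun z hz => smul_mulVec c x z ▸ W'.smul_mem c (a.1 z hz),
        fun c => by rw [mul_smul_comm, smul_mul_assoc, a.2]⟩
  have h4 : ∀ ψ ψ', ψ' ≠ ψ → Q ψ * P ψ' = 0 := fun ψ ψ' e => by
    obtain ⟨a, ha⟩ := DFunLike.ne_iff.1 e
    have h5 := congrArg (fun m => Q ψ * m * P ψ') ((h3 _ (p3 ψ')).2 a)
    simp only [← Matrix.mul_assoc, (hQ ψ).eig] at h5
    simp only [Matrix.mul_assoc, (hQ ψ').eig, Matrix.smul_mul, Matrix.mul_smul, p1,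
      Matrix.mul_one] at h5
    rw [← sub_eq_zero, ← sub_smul, smul_eq_zero] at h5
    exact h5.resolve_left (sub_ne_zero.2 ha.symm)
  have h5 := LinearMap.finrank_le_finrank_of_surjective
    (f := LinearMap.pi fun ψ => (mulVecLin (Q ψ)).submoduleMap W') fun y => by
      choose z hz e using fun ψ => (y ψ).2
      refine ⟨⟨∑ ψ, (P ψ * Q ψ) *ᵥ z ψ, W'.sum_mem fun ψ _ => (h3 _ (p3 ψ)).1 _ (hz ψ)⟩,
        funext fun ψ => Subtype.ext ?_⟩
      change Q ψ *ᵥ ∑ ψ, _ = _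
      rw [mulVec_sum, Finset.sum_eq_single ψ (fun ψ' _ h => by
        rw [mulVec_mulVec, ← Matrix.mul_assoc, h4 _ _ h, Matrix.zero_mul, zero_mulVec]) (by simp),
        mulVec_mulVec, ← Matrix.mul_assoc, p1, Matrix.one_mul]
      exact e ψ
  have h6 : W'.map (mulVecLin (Q ψ)) < ⊤ := lt_top_iff_ne_top.2 fun e => by
    have h7 := Finset.sum_lt_sum (s := Finset.univ) (f := fun _ => 1) (fun ψ _ =>
      Submodule.one_le_finrank_iff.2 ((Submodule.ne_bot_iff (W'.map (mulVecLin (Q ψ)))).2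
        ⟨_, ⟨_, h2 _ (hx ψ), rfl⟩, h1 ψ⟩)) ⟨ψ, Finset.mem_univ _, by rw [e]; simp⟩
    have h8 : finrank L W' ≤ _ := finrank_range_le_card _
    rw [finrank_pi_fintype] at h5
    have := H.dim
    simp only [Finset.sum_const, Finset.card_univ, NumberField.Embeddings.card, smul_eq_mul,
      Fintype.card_fin] at h7 h8
    omega
  obtain ⟨f, f0, hf⟩ := Submodule.exists_le_ker_of_lt_top _ h6
  obtain ⟨c, hc⟩ := h0.fac (hQ ψ).eig
  have h7 : ∀ y, f y = (fun i => f (Pi.single i 1)) ⬝ᵥ y := fun y => by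
    conv_lhs => rw [pi_eq_sum_univ' y, map_sum]
    simp [dotProduct, mul_comm]
  refine ⟨(fun i => f (Pi.single i 1)) ᵥ* c, fun e => f0 (LinearMap.ext fun y => ?_), fun x hx => ?_⟩
  · rw [h7, (hQ ψ).ind (fun i => f (Pi.single i 1)) (by rw [hc, ← vecMul_vecMul, e, zero_vecMul])]
    simp
  · rw [← dotProduct_mulVec, mulVec_mulVec, ← hc, ← h7]
    exact hf ⟨_, h2 x hx, rfl⟩

end Lin

end Vale.Agent.P022K.Gd
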