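import Vale.Agent.P022K.Gd.Tan

/-!
# The Frobenius of the reduction is injective on points
-/

set_option linter.all false

open Matrix IsLocalRing

noncomputable section

namespace Vale.Agent.P022K.Gd

open P010M P010MBas P010MR P010M71 P010MG0 P010MG0.TM P010MP P010M27 P010MT8 TP PM

variable {g : ℕ} {C : Type} [NormedField C] [IsUltrametricDist C] {j : ℂ ≃+* C} {p k : ℕ}
  {s : ℂ ≃+* ℂ} {τ τ' : Mc g} {u : Mi g Af} {N N₀ M c : ℕ} {T T₀ : TM (OO C) (Ix g → ℚ)}

/-- the action of an isometry on the unit ball -/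
def isoO (H : ∀ x, ‖j (s x)‖ = ‖j x‖) : OO C →+* OO C :=
  ((j.symm.trans (s.trans j)).toRingHom.comp (OO C).subtype).codRestrict (OO C) fun x =>
    mem_OO.2 ((H _).trans_le (by simpa using mem_OO.1 x.2))

theorem isoO_val (H : ∀ x, ‖j (s x)‖ = ‖j x‖) (x : OO C) : (isoO H x : C) = j (s (j.symm x)) := rfl

/-- the semilinear relation given by an isometry -/
theorem sl_isoF (H : ∀ x, ‖j (s x)‖ = ‖j x‖) (h : Rel s τ τ' u) (hu : Mn 1 ((M : Af) • u))
    (hN : 0 < N) (hc : N₀ * c = N * M ^ 2) (hB₀ : IsB j τ N₀ T₀) (hB : IsB j τ' N T) (hG : T.Gen) :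
    Sl T₀ T (isoO H) c (Rp ((M : Af) • u)) := by
  refine ⟨rp_ex _, fun m t ht => ?_⟩
  rcases Nat.eq_zero_or_pos m with rfl | hm
  · obtain ⟨a, ha⟩ := Submodule.mem_one.1 (pow_zero (T.S 1) ▸ P010M27.gen_iff.1 hG 0 ht)
    obtain ⟨b, rfl⟩ : ∃ b, isoO H b = a :=
      ⟨⟨j (s.symm (j.symm a)), mem_OO.2 (by rw [← H]; simpa using mem_OO.1 a.2)⟩,
        Subtype.ext (by simp [isoO_val])⟩
    exact ⟨b • 1, Submodule.smul_mem _ _ T₀.one_mem, fun v w _ => by simp [← ha]⟩
  obtain ⟨θ', h1, h2⟩ := (hB m t).1 ht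
  obtain ⟨θ, h3, h4⟩ := h.surj (Nat.mul_pos hN hm) (WU.of_TS h1)
  have h5 : ∀ v, ‖j (sc M θ (cq v))‖ ≤ 1 := fun v => by
    obtain ⟨a, -, ha, -⟩ := rp_ex ((M : Af) • u) v 0
    rw [← H, ← cn_rp hu h1 h4 ha, ← h2]
    exact (t a).2
  refine ⟨fun v => ⟨_, mem_OO.2 (h5 v)⟩, (hB₀ _ _).2 ⟨sc M θ, ?_, fun _ => rfl⟩,
    fun v w e => Subtype.ext ?_⟩
  · rw [← mul_assoc, hc, mul_right_comm]
    exact sc_TS (ws_of h hu h3 h1 h4)
  · rw [h2, cn_rp hu h1 h4 e, isoO_val, j.symm_apply_apply]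

variable [IsAlgClosed C] [Fact p.Prime] [CharP (ResidueField (OO C)) p]

/-- the Frobenius endomorphism of the reduction is injective on points -/
theorem frob_inj (H : Fb j p k s) (h : Rel s τ τ u) (hu : Mn 1 u) (hN : 0 < N) (hB : IsB j τ N T)
    (hT : T.Good) (ht : ∀ r : Pr, r.1 ≠ p → TPt r.1 (hT.ptHom (residue _))) (r : Pr) (hr : r.1 ≠ p)
    (S : Sl T T H.o 1 (Rp u)) : Function.Injective (act0 (S.frob H.o_res hT hT)) := by
  have H' : ∀ x, ‖j ((s⁻¹ : ℂ ≃+* ℂ) x)‖ = ‖j x‖ := fun x => by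
    rw [← H.iso]; exact congrArg (‖j ·‖) (s.apply_symm_apply x)
  have S' := sl_isoF (M := 1) (c := 1) H' (h.inv h.sim.mul_ui) (by simpa using hu.ui) hN (by simp)
    hB hB hT.gen
  rw [Nat.cast_one, one_smul] at S'
  let F := iterateFrobeniusEquiv (ResidueField (OO C)) p k
  let G : ResidueField (OO C) →+* ResidueField (OO C) := F.symm
  have e1 : G.comp ((iterateFrobenius _ p k).comp (residue (OO C))) = residue _ :=
    RingHom.ext fun a => F.symm_apply_apply _
  have e2 : (iterateFrobenius _ p k).comp G = RingHom.id _ := RingHom.ext F.apply_symm_apply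
  have R' : Rd T (residue _) T ((iterateFrobenius _ p k).comp (residue (OO C))) 1 (Rp (ui s u)) :=
    ⟨S'.ex, fun m t ht => (S'.val m t ht).elim fun t' h => ⟨_, bc_mem _ h.1, fun v w e => by
      rw [h.2 v w e]
      exact (H.o_res _).symm.trans (congrArg (residue _) (Subtype.ext (by
        rw [H.o_val, isoO_val, j.symm_apply_apply]
        exact (congrArg j (s.apply_symm_apply _)).trans (j.apply_symm_apply _))))⟩⟩
  have e3 : ((R'.hom hT hT).bc G rfl e1).comp (((S.rd H.o_res).hom hT hT).bc G e1 rfl) = 1 :=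
    tau_inj hT ht r hr ((Ac.tau ht (u := 1) (fun v a hv => by
      obtain ⟨b, -, hb, -⟩ := rp_ex u v 0
      obtain ⟨c, -, hc, -⟩ := rp_ex (ui s u) b 0
      refine (RHom.comp_app _ _ _ _ (RingHom.id_comp _) _ _).trans ((congrArg _
        ((S.rd H.o_res).hom_pt hT hT _ _ _ hb)).trans ((R'.hom_pt hT hT _ _ _ hc).trans
          (pt_congr hB hT _ ?_ hv)))
      obtain ⟨d, -, -, h1⟩ := hb
      obtain ⟨d', -, -, h2⟩ := hc
      have := (Mn.mulVec (a := 1) (b := 1) (hu.ui (σ := s)) (h1.anti (one_dvd _))).add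
        (h2.anti (one_dvd _))
      rwa [mulVec_sub, mulVec_mulVec, h.sim.ui_mul, sub_add_sub_cancel] at this) r hr).trans
      ((map_one _).trans (map_one _).symm))
  refine (injective_iff_map_eq_zero _).2 fun x hx => ?_
  have h1 := ((S.rd H.o_res).hom hT hT).nat (g := (RingHom.id _).comp G) e1 rfl
    (RingHom.id_comp _) (RingHom.id_comp _) (iterateFrobenius _ p k) e2 rfl
    (RingHom.ext fun a => F.apply_symm_apply _) x
  have h2 := (P010M21.pmap_eq_zero _ _).1 (h1.trans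
    ((RHom.comp_app _ (frb _ _ p k) _ _ (RingHom.id_comp _) _ x).symm.trans hx))
  rw [show RingHom.ker (iterateFrobenius (ResidueField (OO C)) p k) = ⊥ from
    (RingHom.injective_iff_ker_eq_bot _).1 F.injective] at h2
  rw [← RHom.one_app (RingHom.id _) (RingHom.id_comp _) x, ← e3,
    RHom.comp_app _ _ _ _ (RingHom.id_comp _)]
  exact (congrArg _ (P010M21.Kr_bot h2)).trans (map_zero _)

/-- a divisor of a power of the Frobenius is injective on the points of the reduction -/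
theorem dvd_inj (H : Fb j p k s) (h : Rel s τ τ u) (hu : Mn 1 u) (hN : 0 < N) (hB : IsB j τ N T)
    (hT : T.Good) (ht : ∀ r : Pr, r.1 ≠ p → TPt r.1 (hT.ptHom (residue _))) (r : Pr) (hr : r.1 ≠ p)
    {c f : Mi g ℚ} {m : ℕ} (e : mp r u ^ m = mp r (am (c * f))) {w w' : Hom hT.ab hT.ab}
    (hw : ∀ v, w.ev _ (hT.ptHom (residue _) v) = hT.ptHom (residue _) (f *ᵥ v))
    (hw' : ∀ v, w'.ev _ (hT.ptHom (residue _) v) = hT.ptHom (residue _) (c *ᵥ v)) :
    Function.Injective (w.ev (residue _)) := by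
  have S := sl_of (M := 1) (c := 1) H h (by simpa using hu) hN (by simp) hB hB hT.gen
  rw [Nat.cast_one, one_smul] at S
  have h0 : ∀ {f : Mi g ℚ} {w : Hom hT.ab hT.ab}, (∀ v, w.ev _ (hT.ptHom (residue _) v) =
      hT.ptHom (residue _) (f *ᵥ v)) → tau ht r hr (w.bc (residue _) rfl rfl) = mp r (am f) :=
    fun hw => Ac.tau ht (fun v a hv => (hw v).trans (pt_congr hB hT _ (by
      rw [am_mulVec, sub_self]; exact vn_zero 1) hv)) r hr
  have h1 : S.frob H.o_res hT hT ^ m = w'.bc (residue _) rfl rfl * w.bc (residue _) rfl rfl :=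
    tau_inj hT ht r hr (by
      rw [map_pow, map_mul, (ac_frob H hB hT hT S).tau ht, e, h0 hw, h0 hw', am_mul, map_mul])
  have h2 := (frob_inj H h hu hN hB hT ht r hr S).iterate m
  have h3 := congrArg (RHom.act (RingHom.id _) (RingHom.id_comp _)) h1
  rw [map_pow, map_mul] at h3
  refine Function.Injective.of_comp (f := w'.ev (residue _)) ?_
  have h4 := congrArg DFunLike.coe h3
  rw [AddMonoid.End.coe_pow, AddMonoid.End.coe_mul] at h4
  exact h4 ▸ h2

end Vale.Agent.P022K.Gd
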