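import Vale.Agent.P022K.Gd.Frb
import Vale.Agent.P022K.PM.Ta1

/-!
# The Weil bound for endomorphisms given by forms
-/

set_option linter.all false

noncomputable section

namespace Vale.Agent.P022K.Gd

open Polynomial IsLocalRing P010M P010MBas P010M81 P010M9 P010M21 P010MQ P010M59

theorem le_of_pow {a c K : ℝ} (hc : 0 ≤ c) (h : ∀ n : ℕ, a ^ n ≤ K * c ^ n) : a ≤ c := by
  by_contra! hn
  have ha := hc.trans_lt hn
  have hK : 0 < K := by have := h 0; simp at this; linarith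
  obtain ⟨n, h1⟩ := exists_pow_lt_of_lt_one (inv_pos.2 hK) ((div_lt_one ha).2 hn)
  rw [div_pow, div_lt_iff₀ (pow_pos ha n), lt_inv_mul_iff₀ hK] at h1
  exact h1.not_ge (h n)

theorem abs_bound {E : Type*} [Ring E] [Module.Finite ℤ E] (β : E →+ E →+ ℝ)
    (sym : ∀ x y, β x y = β y x) (nn : ∀ x, 0 ≤ β x x) (int : ∀ x y, ∃ z : ℤ, β x y = z)
    (ani : ∀ x, β x x = 0 → x = 0) {w : E} {c : ℝ} (h0 : 0 ≤ c)
    (hc : ∀ x, β (w * x) (w * x) ≤ c * β x x) {z : ℂ}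
    (hz : ∀ g : ℤ[X], aeval w g = 0 → aeval z g = 0) : ‖z‖ ^ 2 ≤ c := by
  classical
  have cs : ∀ x e, β x e ^ 2 ≤ β e e * β x x := fun x e => by
    rcases (nn e).eq_or_lt with h | h
    · simp [ani e h.symm]
    obtain ⟨s, hs⟩ := int e e
    obtain ⟨t, ht⟩ := int x e
    have h1 := nn (s • x - t • e)
    simp only [map_sub, map_zsmul, AddMonoidHom.sub_apply, AddMonoidHom.zsmul_apply] at h1
    simp only [zsmul_eq_mul, sym e x, ← hs, ← ht] at h1
    refine le_of_mul_le_mul_left ?_ h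
    nlinarith
  obtain ⟨m, e, he⟩ := Module.Finite.exists_fin (R := ℤ) (M := E)
  choose b hb using int
  let Φ : E →+ (Fin m → ℤ) := AddMonoidHom.mk' (fun x j => b x (e j)) fun x y => funext fun j =>
    Int.cast_injective (α := ℝ) (by simp [← hb])
  have hΦ : ∀ x, Φ x = 0 → x = 0 := fun x hx => ani x (by
    have : ∀ y ∈ Submodule.span ℤ (Set.range e), β x y = 0 := fun y hy =>
      Submodule.span_induction (by
        rintro _ ⟨j, rfl⟩
        rw [hb]; exact_mod_cast congrFun hx j) (map_zero _)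
        (fun a b _ _ ha hb => by rw [map_add, ha, hb, add_zero])
        (fun a b _ hb => by rw [map_zsmul, hb, smul_zero]) hy
    exact this x (he ▸ trivial))
  let ψ : ℤ[X] →+ (Fin m → ℤ) := Φ.comp (aeval w : ℤ[X] →ₐ[ℤ] E).toRingHom.toAddMonoidHom
  obtain ⟨h, hh⟩ := (Module.Baer.of_divisible ℂ).extension_property_addMonoidHom _
    (QuotientAddGroup.kerLift_injective ψ) (QuotientAddGroup.lift ψ.ker
      (aeval z : ℤ[X] →ₐ[ℤ] ℂ).toRingHom.toAddMonoidHom fun g hg => hz g (hΦ _ hg))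
  have h1 : ∀ n : ℕ, z ^ n = ∑ j, (b (w ^ n) (e j) : ℂ) * h (Pi.single j 1) := fun n => by
    have h2 : h (Φ (aeval w (X ^ n : ℤ[X]))) = aeval z (X ^ n : ℤ[X]) :=
      DFunLike.congr_fun hh (QuotientAddGroup.mk (X ^ n))
    rw [aeval_X_pow, aeval_X_pow] at h2
    rw [← h2, pi_eq_sum_univ' (Φ (w ^ n)), map_sum]
    exact Finset.sum_congr rfl fun j _ => by rw [map_zsmul, zsmul_eq_mul]; rfl
  have h3 : ∀ n : ℕ, β (w ^ n) (w ^ n) ≤ β 1 1 * c ^ n := fun n => by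
    induction n with
    | zero => simp
    | succ n ih =>
      rw [pow_succ', pow_succ' c, mul_left_comm]
      exact (hc _).trans (mul_le_mul_of_nonneg_left ih h0)
  refine le_of_pow (K := (∑ j, √(β (e j) (e j)) * ‖h (Pi.single j 1)‖) ^ 2 * β 1 1) h0 fun n => ?_
  have h4 : ‖z‖ ^ n ≤ (∑ j, √(β (e j) (e j)) * ‖h (Pi.single j 1)‖) * √(β (w ^ n) (w ^ n)) := by
    rw [← norm_pow, h1, Finset.sum_mul]
    refine (norm_sum_le _ _).trans (Finset.sum_le_sum fun j _ => ?_)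
    rw [norm_mul, mul_right_comm, ← Real.sqrt_mul (nn _), Complex.norm_intCast, ← hb]
    exact mul_le_mul_of_nonneg_right (Real.abs_le_sqrt (cs _ _)) (norm_nonneg _)
  rw [← pow_mul, mul_comm 2, pow_mul, mul_assoc]
  refine (pow_le_pow_left₀ (by positivity) h4 2).trans ?_
  rw [mul_pow, Real.sq_sqrt (nn _)]
  exact mul_le_mul_of_nonneg_left (h3 n) (sq_nonneg _)

theorem ht_le {k Ω ι ι' : Type} [CommRing k] [Field Ω] [IsAlgClosed Ω] [Finite ι] [Finite ι']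
    (P : PF Ω) {f : k →+* Ω} (hf : ∀ c, f c ∈ P.C) {a : ι → Ω} {b : ι' → Ω} (ha : ∃ i, a i ≠ 0)
    (hb : ∃ i, b i ≠ 0) {Q : ι' → MvPolynomial ι k} {e : ℕ} (hQ : ∀ i, (Q i).IsHomogeneous e)
    (h : ∀ i, b i = MvPolynomial.eval₂ f a (Q i)) : P.ht b ≤ e * P.ht a := by
  rw [PF.ht, PF.ht, ← mean_mul _ (P.ap_M a)]
  refine mean_mono (P.ap_M b) ((P.ap_M a).mul _) fun σ => ?_
  rw [PF.M, PF.M, mul_finsum]
  refine finsum_le_finsum' (P.msupp (P.ne_conj hb σ)) ((P.msupp (P.ne_conj ha σ)).subset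
    fun x hx e => hx (by simp only [e, mul_zero])) fun x => ?_
  obtain ⟨j, h0, h1, -⟩ := exists_lm (P.v x) (P.ne_conj hb σ)
  have h2 : σ (b j) = MvPolynomial.eval₂ f (fun i => σ (a i)) (Q j) := by
    rw [h]; exact (eval₂_comp' (σ : Ω →+* Ω) (P.comp_f hf σ) a _).symm
  beta_reduce
  rw [h1, h2]
  exact lg_eval_le _ (P.v_le hf x) (hQ j) (P.ne_conj ha σ) (h2 ▸ h0)

theorem exists_pt {k ι : Type} [Field k] [IsAlgClosed k] [Finite ι] (A : AbSch k ι)
    (hC : Cube (O1 A)) : ∃ (Ω : Type) (_ : Field Ω) (_ : IsAlgClosed Ω) (P : PF Ω) (f : k →+* Ω)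
      (hf : ∀ c, f c ∈ P.C) (y : A.P f) (N : ℕ), N ≠ 0 ∧
      (∀ w : End A, (N : ℝ) * P.hp (w.ev f y) ∈ PF.SZ) ∧
      ∀ w : End A, P.B hf hC (w.ev f y) (w.ev f y) = 0 → w = 0 := by
  obtain ⟨Ω, _, _, P, φ, hφ, hf, x, c, hc⟩ := exists_cv A
  obtain ⟨L, δ, h3, h4, hL⟩ := exists_deg P.alg fun i => φ (gX A (RingHom.id k) i)
  obtain ⟨g, e⟩ : ∃ g : k →+* L, L.subtype.comp g = ff φ :=
    ⟨(ff φ).codRestrict L fun a => h4 ⟨_, P.le (hf a)⟩, rfl⟩
  obtain ⟨η, hη⟩ : ∃ η : A.P g, pmap _ e η = gpt φ hφ - ct (ff φ) c := by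
    obtain ⟨i, hi⟩ := gen_unit φ hφ
    refine ⟨pmk (pullCone _ e Subtype.val_injective (gen φ rfl ⟨i, hi⟩) (fun j => ⟨_, h3 j⟩) rfl
      ⟨i, Ne.isUnit fun h => hi.ne_zero (congrArg Subtype.val h)⟩) - ct g c, ?_⟩
    rw [pmap_sub, map_ct]
    exact congrArg (· - _) (map_pullCone _ _ _ _ _ _ _)
  rw [← hη] at hc
  refine ⟨Ω, inferInstance, inferInstance, P, ff φ, hf, pmap _ e η,
    (HH φ P).index * δ.factorial * (HH φ P).index.factorial, mul_ne_zero (mul_ne_zero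
    Subgroup.FiniteIndex.index_ne_zero δ.factorial_ne_zero) (Nat.factorial_ne_zero _),
    fun w => ?_, fun w h9 => ?_⟩
  · have := nsmul_mem (hp_deg P (HH φ P) L hL e (w.ev g η)) (HH φ P).index.factorial
    rw [ev_nat, nsmul_eq_mul] at this
    exact Set.mem_of_eq_of_mem (by push_cast; ring) this
  · have h10 := zero_of_hp P hf x (le_antisymm (h9 ▸ P.hp_le_B hf hC _) (P.hp_nonneg _)) (by
      rw [← map_lift _ (P.v_le hf x) (pmap _ e η), ← ev_nat, lift_map, ev_nat,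
        (pmap_eq_zero _ rfl).2 (by rwa [ker_residue]), map_zero])
    rw [hη, map_sub, sub_eq_zero, ev_ct] at h10
    exact hom_zero _ (gen_gpt' φ hφ) _ h10

variable {k F ι : Type} [CommRing k] [Field F] [IsAlgClosed F] [Finite ι] {A : AbSch k ι}
  {φ : k →+* F}

/-- **Weil bound** -/
theorem weil (hC : Cube (O1 A)) {w : RHom A φ A φ} {c : ℕ} (hw : Dg w c) {z : ℂ}
    (hz : ∀ g : ℤ[X], aeval w g = 0 → aeval z g = 0) : ‖z‖ ^ 2 ≤ c := by
  have := PM.rhom_fg A φ φ hC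
  obtain ⟨Ω, _, _, P, f, hf, y, N, hN, h1, h2⟩ := exists_pt (A.bc φ) (hC.bc1 φ)
  let ε : RHom A φ A φ →+ (A.bc φ).P f :=
    ((AddMonoidHom.eval y).comp (RHom.appHom f f.comp_id f.comp_id)).comp toH
  have hε : ∀ w, ε w = (toH w).ev f y := fun _ => rfl
  have h3 : ∀ x, P.hp ((toH w).ev f x) ≤ c * P.hp x := fun x => by
    obtain ⟨x, rfl⟩ := mk_surj x
    obtain ⟨Q, h4, h5⟩ := hw
    obtain ⟨z, h6, h7⟩ := h5 Ω f _ _ rfl rfl (coneBc _ φ f x)
    have h8 : (toH w).ev f (pmk x) = pmk ((coneBc _ φ f).symm z) :=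
      congrArg (bcEquiv A φ f).symm h7
    change P.hp ((toH w).ev f (pmk x)) ≤ c * P.hp (pmk x)
    rw [h8, P.hp_mk x]
    refine (P.hp_mk (A := A.bc φ) ((coneBc _ φ f).symm z)).trans_le ?_
    exact ht_le P hf (x.2.1.imp fun _ h => h.ne_zero) (z.2.1.imp fun _ h => h.ne_zero) h4 h6
  have h4 : ∀ x, ε (w * x) = (toH w).ev f (ε x) := fun x =>
    congrArg (bcEquiv A φ f).symm ((RHom.mul_app w x f rfl _).trans
      (congrArg (w.app f rfl rfl) ((bcEquiv A φ f).apply_symm_apply _).symm))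
  obtain ⟨β, h5⟩ : ∃ β : RHom A φ A φ →+ RHom A φ A φ →+ ℝ, ∀ u v,
      β u v = N * P.B hf (hC.bc1 φ) (ε u) (ε v) :=
    ⟨N • ((P.B hf (hC.bc1 φ)).comp ε).compl₂ ε, fun u v => by simp⟩
  refine abs_bound β (fun u v => ?_) (fun u => ?_)
    (fun u v => ?_) (fun u hu => ?_) c.cast_nonneg (fun x => ?_) hz
  · rw [h5, h5, P.B_apply, P.B_apply, add_comm]; ring
  · rw [h5]; exact mul_nonneg N.cast_nonneg (P.B_nonneg _ _ _)
  · obtain ⟨z, hz⟩ := sub_mem (sub_mem (h1 (toH (u + v))) (h1 (toH u))) (h1 (toH v))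
    refine ⟨z, ?_⟩
    simp only [zsmul_eq_mul, mul_one] at hz
    rw [hz, ← mul_sub, ← mul_sub, ← hε, ← hε, ← hε, map_add, h5, P.B_apply]
  · rw [h5, mul_eq_zero, Nat.cast_eq_zero, hε] at hu
    exact toH_inj ((h2 (toH u) (hu.resolve_left hN)).trans (map_zero _).symm)
  · have h6 := h3 (-ε x)
    rw [map_neg] at h6
    rw [h5, h5, mul_left_comm, P.B_self, P.B_self, h4, mul_add (c : ℝ)]
    exact mul_le_mul_of_nonneg_left (add_le_add (h3 _) h6) N.cast_nonneg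

/-- eigenvalues of any realisation are bounded under every complex embedding -/
theorem eig_le (hC : Cube (O1 A)) {w : RHom A φ A φ} {c : ℕ} (hw : Dg w c) {n K Ω : Type}
    [Fintype n] [DecidableEq n] [Field K] [Field Ω] (ρ : RHom A φ A φ →+* Matrix n n K)
    (μ : Ω →+* K) (ψ : Ω →+* ℂ) {y : Ω} {x : n → K} (hx : x ≠ 0)
    (h : (ρ w).mulVec x = μ y • x) : ‖ψ y‖ ^ 2 ≤ c := by
  refine weil hC hw fun g hg => ?_
  have h1 : (ρ (aeval w g)).mulVec x = μ (aeval y g) • x := by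
    clear hg
    induction g using Polynomial.induction_on with
    | C a => simp [Matrix.intCast_mulVec]
    | add a b ha hb => simp only [map_add, Matrix.add_mulVec, add_smul, ha, hb]
    | monomial n a ih =>
      rw [pow_succ, ← mul_assoc, map_mul, map_mul, map_mul (aeval y), aeval_X, aeval_X,
        ← Matrix.mulVec_mulVec, h, Matrix.mulVec_smul, ih, smul_smul, map_mul μ, mul_comm]
  rw [hg, map_zero, Matrix.zero_mulVec, eq_comm, smul_eq_zero, map_eq_zero] at h1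
  exact (aeval_algHom_apply ψ.toIntAlgHom y g).trans
    ((congrArg ψ (h1.resolve_right hx)).trans (map_zero ψ))

end Vale.Agent.P022K.Gd
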