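import Vale.Agent.P022K.Gd.Tan
import Vale.Agent.P022K.Gd.Cnt
import Vale.Agent.P022K.Gd.Et
import Vale.Agent.P022K.PM.Co3

/-!
# The connected part of the Tate module of a good point
-/

set_option linter.all false

open Matrix IsLocalRing Module

noncomputable section

namespace Vale.Agent.P022K.Gd

open P010M P010MBas P010MR P010M71 P010MG0 P010MG0.TM P010MP P010M27 P010MT8 TP PM

/-- the saturation of a subring -/
def sat {A : Type} [Ring A] (S : Subring A) : Subring A where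
  carrier := {u | ∃ N : ℕ, N ≠ 0 ∧ N • u ∈ S}
  mul_mem' := fun ⟨a, ha, h⟩ ⟨b, hb, h'⟩ => ⟨a * b, mul_ne_zero ha hb, by
    rw [← smul_mul_smul_comm]; exact mul_mem h h'⟩
  one_mem' := ⟨1, one_ne_zero, nsmul_mem (one_mem S) _⟩
  add_mem' := fun ⟨a, ha, h⟩ ⟨b, hb, h'⟩ => ⟨a * b, mul_ne_zero ha hb, by
    rw [smul_add, mul_smul a b, mul_smul a b, smul_comm a b]
    exact add_mem (nsmul_mem h _) (nsmul_mem h' _)⟩
  zero_mem' := ⟨1, one_ne_zero, nsmul_mem (zero_mem S) _⟩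
  neg_mem' := fun ⟨a, ha, h⟩ => ⟨a, ha, by rw [smul_neg]; exact neg_mem h⟩

variable {g : ℕ} {C : Type} [NormedField C] [IsUltrametricDist C] {j : ℂ ≃+* C} {k : ℕ}
  {s : ℂ ≃+* ℂ} {τ : Mc g} {u u' : Mi g Af} {N : ℕ} {T : TM (OO C) (Ix g → ℚ)}

/-- `W` is the connected part of the Tate module and `S` acts through the reduction -/
structure Et (j : ℂ ≃+* C) (r : Pr) (τ : Mc g) (W : Submodule ℚ_[r.1] (Ix g → ℚ_[r.1]))
    (S : Subring (Mi g Af)) : Prop where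
  iso : ∀ s u, (∀ x, ‖j (s x)‖ = ‖j x‖) → Rel s τ τ u → Mn 1 u → ∀ x ∈ W, mp r u *ᵥ x ∈ W
  stab : ∀ u ∈ S, ∀ x ∈ W, mp r u *ᵥ x ∈ W
  kill : ∀ u ∈ S, ∀ r' : Pr, r'.1 ≠ r.1 → mp r' u = 0 → ∀ x, mp r u *ᵥ x ∈ W
  rat : ∀ f, Hm τ τ f → am f ∈ S
  frb : ∀ k s u, Fb j r.1 k s → Rel s τ τ u → u ∈ S
  dim : ∀ k s u (h : Polynomial ℤ) (r' : Pr), 0 < k → Fb j r.1 k s → Rel s τ τ u → Mn 1 u →
    r'.1 ≠ r.1 → IsCoprime (h.coeff 0) (r.1 ^ k : ℕ) →
    Polynomial.aeval (mp r' u) (op h (r.1 ^ k : ℕ)) = 0 → finrank ℚ_[r.1] W ≤ g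

theorem sl_iso (hs : ∀ x, ‖j (s x)‖ = ‖j x‖) (h : Rel s τ τ u) (hu : Mn 1 u) (hN : 0 < N)
    (hB : IsB j τ N T) {t : (Ix g → ℚ) → OO C} (ht : t ∈ T.S 1) :
    ∃ t' ∈ T.S 1, ∀ v w, Rp u v w → (t w : C) = j (s (j.symm (t' v))) := by
  have hu' : Mn 1 (((1 : ℕ) : Af) • u) := by simpa using hu
  obtain ⟨θ', h1, h2⟩ := (hB 1 t).1 ht
  obtain ⟨θ, h3, h4⟩ := h.surj (Nat.mul_pos hN one_pos) (WU.of_TS h1)
  have h5 : ∀ v w, Rp u v w → θ' (cq w) = s (θ (cq v)) := fun v w e => by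
    simpa [sc_one] using cn_rp hu' h1 h4 (v := v) (w := w) (by simpa using e)
  refine ⟨fun v => ⟨j (θ (cq v)), mem_OO.2 ?_⟩, (hB _ _).2 ⟨θ, ?_, fun _ => rfl⟩, fun v w e => ?_⟩
  · obtain ⟨a, -, ha, -⟩ := rp_ex u v 0
    rw [← hs, ← h5 v a ha, ← h2]
    exact (t a).2
  · simpa [sc_one] using sc_TS (ws_of h hu' h3 h1 h4)
  · rw [h2, h5 v w e, j.symm_apply_apply]

theorem Rp.inv (hu : Mn 1 u) (hu' : Mn 1 u') (e : u' * u = 1) {v w : Ix g → ℚ} (h : Rp u v w) :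
    Rp u' w v := by
  obtain ⟨d, hd, h1, h2⟩ := h
  refine ⟨d, hd, den_iff.2 ?_, ?_⟩
  · have := (hu.mulVec (den_iff.1 h1)).sub (y := (d : Af) • _) fun i =>
      Zn_anti (one_dvd _) (Zn_mul (nat_mem d) (h2 i))
    rwa [mulVec_smul, ← smul_sub, sub_sub_cancel] at this
  · have := (hu'.mulVec h2).neg
    rwa [mulVec_sub, mulVec_mulVec, e, one_mulVec, neg_sub, one_mul] at this

variable [IsAlgClosed C] (hB : IsB j τ N T) (hT : T.Good)

include hB

theorem iso_ker (hs : ∀ x, ‖j (s x)‖ = ‖j x‖) (h : Rel s τ τ u) (hu : Mn 1 u) (hN : 0 < N)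
    (v a : Ix g → ℚ) (ha : Vn 1 (u *ᵥ av v - av a)) (hv : hT.ptHom (residue _) v = 0) :
    hT.ptHom (residue _) a = 0 := by
  obtain ⟨b, -, hb, -⟩ := rp_ex u v 0
  rw [pt_congr hB hT _ ha (hb.elim fun d h => h.2.2.anti (one_dvd _)),
    ← map_zero (hT.ptHom (residue _))]
  rw [← map_zero (hT.ptHom (residue _))] at hv
  obtain ⟨x, hx⟩ := pt_prop hT _ hv
  choose t h1 h2 using fun i => sl_iso hs h hu hN hB ((T.itp 1).mem i)
  refine (pmk_eq (A := hT.ab) (a := mkC hT.gen _ ((hT.uni b).imp fun _ h => h.map _) (Z_z _ b))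
    (b := mkC hT.gen _ ((hT.uni 0).imp fun _ h => h.map _) (Z_z _ 0))).2 fun i l => ?_
  change residue _ (T.bs 1 i b) * residue _ (T.bs 1 l 0) =
    residue _ (T.bs 1 i 0) * residue _ (T.bs 1 l b)
  have h3 : residue _ (t i v * t l 0 - t i 0 * t l v) = 0 := by
    rw [map_sub, map_mul, map_mul, hx _ (h1 i), hx _ (h1 l)]; ring
  rw [res_zero, ← j.apply_symm_apply (_ : OO C), ← hs] at h3
  rw [← sub_eq_zero, ← map_mul, ← map_mul, ← map_sub, res_zero]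
  simpa [h2 _ _ _ hb, h2 _ _ _ (rp_zero u)] using h3

/-- the integral matrices that act through an endomorphism of the reduction -/
def Ar : Subring (Mi g Af) where
  carrier := {u | Mn 1 u ∧ ∃ w : RHom hT.ab (residue _) hT.ab (residue _),
    Ac (hT.ptHom (residue _)) (hT.ptHom (residue _)) (act0 w) u}
  mul_mem' := fun {u u'} ⟨h1, w, hw⟩ ⟨h2, w', hw'⟩ => ⟨Mn.mul (a := 1) (b := 1) h1 h2, w * w',
    fun v a ha => by
      obtain ⟨b, hb⟩ := exists_vn (u' *ᵥ av v) one_pos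
      have := ha.sub (Mn.mulVec (a := 1) (b := 1) h1 hb)
      rw [mulVec_sub, mulVec_mulVec, sub_sub_sub_cancel_left] at this
      exact (RHom.mul_app ..).trans ((congrArg _ (hw' v b hb)).trans (hw b a this))⟩
  one_mem' := ⟨mn_one, 1, fun v a ha => (RHom.one_app ..).trans
    (pt_congr hB hT _ (by rw [one_mulVec, sub_self]; exact vn_zero 1) ha)⟩
  add_mem' := fun {u u'} ⟨h1, w, hw⟩ ⟨h2, w', hw'⟩ => ⟨h1.add h2, w + w', fun v a ha => by
    obtain ⟨b, hb⟩ := exists_vn (u' *ᵥ av v) one_pos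
    have := ha.sub hb
    rw [add_mulVec, sub_sub_sub_comm, add_sub_cancel_right, ← av_sub] at this
    exact (congrArg₂ (· + ·) (hw v _ this) (hw' v b hb)).trans
      ((map_add _ _ _).symm.trans (congrArg _ (sub_add_cancel _ _)))⟩
  zero_mem' := ⟨fun _ _ => zero_mem _, 0, fun v a ha => (pt_int hB hT _ ((vn_av one_pos).1
    (by simpa using ha.neg))).symm⟩
  neg_mem' := fun {u} ⟨h1, w, hw⟩ => ⟨h1.neg, -w, fun v a ha => by
    have := ha.neg
    rw [neg_mulVec, neg_sub', neg_neg, ← av_neg] at this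
    exact (congrArg Neg.neg (hw v _ this)).trans (by rw [map_neg, neg_neg])⟩

/-- the connected part -/
def Vc (r : Pr) : Submodule ℚ_[r.1] (Ix g → ℚ_[r.1]) :=
  V0 r (K := (hT.ptHom (residue _)).ker) fun _ hv => pt_int hB hT _ hv

omit hB in
theorem of_nsmul {r : Pr} {W : Submodule ℚ_[r.1] (Ix g → ℚ_[r.1])} {n : ℕ} (hn : n ≠ 0) {x}
    (h : mp r (n • u) *ᵥ x ∈ W) : mp r u *ᵥ x ∈ W := by
  rwa [map_nsmul, smul_mulVec, ← Nat.cast_smul_eq_nsmul ℚ_[r.1],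
    W.smul_mem_iff (Nat.cast_ne_zero.2 hn)] at h

include hT in
theorem rk_eq (hτ : τ ∈ Hg g) (hN : 0 < N) {m : ℕ} (hm : 0 < m) : T.rk m = (2 * (N * m)) ^ g := by
  obtain ⟨F, -, h1, h2⟩ := P010MP26.exists_bas hτ hN hB hT.uni hm
  obtain ⟨h3, h4⟩ := (P010MTh.bas_row g τ hτ).2 _ (Nat.mul_pos hN hm)
  have := finrank_span_eq_card h1
  rw [h2, ← h4, finrank_span_eq_card h3] at this
  simpa using this.symm

omit hB in
theorem int_of {f : Mi g ℚ} (hf : Mn 1 (am f)) : ∃ L : Mi g ℤ, L.map (↑) = f := by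
  choose z hz using fun a b => rat_int1 (hf a b)
  exact ⟨Matrix.of z, Matrix.ext fun a b => (hz a b).symm⟩

/-- **the connected part** -/
theorem et [CompleteSpace C] {r : Pr} (h1 : ‖(r.1 : C)‖ < 1) (hτ : τ ∈ Hg g) (hN : 2 ≤ N) :
    Et j r τ (Vc hB hT r) (sat (Ar hB hT)) := by
  have := charP_res (C := C) (p := r.1) h1
  have ht := tpt_res r.2 h1 hτ hN hB hT
  have ex : ∀ u : Mi g Af, ∃ M : ℕ, M ≠ 0 ∧ Mn 1 (M • u) := fun u =>
    (exists_den_fin fun x : Ix g × Ix g => u x.1 x.2).imp fun d h =>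
      ⟨h.1.ne', fun a b => by simpa using h.2 (a, b)⟩
  refine ⟨fun s u hs h hu x => V0_stab _ hu (iso_ker hB hT hs h hu (by omega)),
    fun u ⟨n, hn, hu, w, hw⟩ x hx => of_nsmul hn (V0_stab _ hu (fun v a ha hv =>
      (hw v a ha).symm.trans ((congrArg _ hv).trans (map_zero _))) hx),
    fun u ⟨n, hn, hu, w, hw⟩ r' hr e x => of_nsmul hn (V0_kill _ hu (fun v a ha => ?_) x),
    fun f hf => ?_, fun k s u H h => ?_, fun k s u h r' hk H hr hu e hc h0 => ?_⟩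
  · obtain rfl : w = 0 := tau_inj hT ht r' hr (by
      rw [hw.tau ht, map_nsmul, e, smul_zero, map_zero])
    exact (hw v a ha).symm
  · obtain ⟨n, hn, h2⟩ := ex (am f)
    have e : n • am f = am ((n : ℚ) • f) := by
      rw [am_smul, map_natCast, Nat.cast_smul_eq_nsmul]
    obtain ⟨L, hL⟩ := int_of (e ▸ h2)
    obtain ⟨w, hw⟩ := homr hτ hN hB hT hτ hN hB hT L fun x => (hf.smul n x).imp fun y hy => by
      rw [← hy, ← hL, Matrix.map_map]; congr 2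
    refine ⟨n, hn, h2, w.bc (residue _) (RingHom.comp_id _) (RingHom.comp_id _), fun v a ha =>
      (hw _ _ v).trans (pt_congr hB hT _ ?_ ha)⟩
    rw [e, hL, am_mulVec, sub_self]
    exact vn_zero 1
  · obtain ⟨n, hn, h2⟩ := ex u
    rw [← Nat.cast_smul_eq_nsmul Af] at h2
    obtain ⟨w, -, hw⟩ := red H h h2 (by omega) rfl hB hB hT hT
    exact ⟨n, hn, Nat.cast_smul_eq_nsmul Af n u ▸ ⟨h2, w, hw⟩⟩
  have S := sl_of (M := 1) (c := 1) H hr (by simpa using hu) (by omega) (by simp) hB hB hT.gen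
  rw [Nat.cast_one, one_smul] at S
  have h2 : Kf r.1 (S.frob H.o_res hT hT) k := S.kf hT H.o_res fun t' ht' => by
    obtain ⟨t, h3, h4⟩ := sl_iso (s := s⁻¹) (fun x => (H.iso _).symm.trans
      (congrArg (‖j ·‖) (s.apply_symm_apply x))) (hr.inv hr.sim.mul_ui) hu.ui (by omega) hB ht'
    refine ⟨t, h3, fun v w e => Subtype.ext ?_⟩
    rw [H.o_val, h4 w v (e.inv hu hu.ui hr.sim.ui_mul), j.symm_apply_apply]
    exact ((congrArg j (s.apply_symm_apply _)).trans (j.apply_symm_apply _)).symm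
  have h3 : Polynomial.aeval (S.frob H.o_res hT hT) (op h (r.1 ^ k : ℕ)) = 0 :=
    tau_inj hT ht r' e ((Polynomial.aeval_algHom_apply (tau ht r' e).toIntAlgHom _ _).symm.trans
      ((congrArg (Polynomial.aeval · _) ((ac_frob H hB hT hT S).tau ht r' e)).trans
        (h0.trans (map_zero _).symm)))
  refine V0_dim _ hk (C := 2 * N * T.rk 1 * (r.1 ^ k) ^ h.natDegree) fun m ι _ w h4 h5 h6 => ?_
  refine (cnt hT w h4 (fun a b e => h5 a b fun i => ?_) (n := (r.1 ^ k) ^ m) (fun i => ?_)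
    fun R _ _ g x a ha hx => h2.ord hk hc h3 g rfl x ha hx).trans_eq ?_
  · simpa using (pt_zero hτ hN hB hT _).1 ((map_sub _ _ _).trans (sub_eq_zero.2 e)) i
  · rw [← map_nsmul]
    exact pt_int hB hT _ (h6 i)
  · rw [rk_eq hB hT hτ (by omega) (Nat.mul_pos (pow_pos r.2.pos _)
      ((hT.uni 0).elim fun i _ => i.pos))]
    congr 1
    ring

end Vale.Agent.P022K.Gd
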